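import Vale.Agent.P235.XC.H142.Geo
import Vale.Agent.P235.XC.H337.CDefs
import Vale.Agent.P235.XC.H831.Cross

/-! XC: helper337's inputs `Blk` and `X5At (TX r)` for the 64 blocks with margin 4 (helper142) -/

namespace Vale.Agent.P235.XC.H142

open SimpleGraph Vale.Agent.P235.H134 Vale.Agent.P235.H56 Vale.Agent.P235.H141
open Vale.Agent.P235.H830 (Touch nbr UU sub_UU UU_mono UU_conn UU_disj UU_touch UU_disj')
open Vale.Agent.P235.XC (TX)
open Vale.Agent.P235.XC.H831 (cross_arcs tx_of_model tsymm tmono)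

theorem blkAll (r : ℕ) (hr : 2 ≤ r) : ∃ (s : ℕ) (blk : Fin 64 → Set (Fin s × Fin s))
    (arc : Fin 64 → Fin 4 → Set (Fin s × Fin s)) (rt : Fin 64 → Fin 4 → Fin s × Fin s)
    (ln : Fin 64 → Fin 4 → Set (Fin s × Fin s)), 2 ≤ s ∧ H337.Blk s blk arc rt ln ∧
      H337.X5At (TX r) s blk arc := by
  classical
  have hr1 : 1 ≤ r := by omega
  have hroot := fun (k : Fin 64) (j : Fin 4) => root_cells hr1 k j
  choose rt hrt y hy hadj using hroot
  refine ⟨NN r, blk r, arc r, rt, ln r, by unfold NN; omega,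
    ⟨fun k l h => blk_disj r h, blk_card r, fun k i => ⟨rt k i, rfl, y k i, hy k i, hadj k i⟩,
      hrt, ln_conn r, ln_blk r, ln_disj r, ?_, ?_⟩, ?_⟩
  · intro k
    obtain ⟨⟨x0, a0, b0⟩, ⟨x1, a1, b1⟩, ⟨x2, a2, b2⟩, ⟨x3, a3, b3⟩⟩ := ln_side (r := r) k
    exact fin4 _ ⟨x0, a0, b0⟩ ⟨x1, a1, b1⟩ ⟨x2, a2, b2⟩ ⟨x3, a3, b3⟩
  · intro k l hkl T hT _ hTl
    obtain ⟨j, Z, h1, h2, h3, h4, h5⟩ := geo r hr k l hkl T hT hTl
    exact ⟨j, Z, h1, h5 (hrt k j), h2, h3, h4⟩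
  · intro V G Y hYc hYd hYa k P Q hP hQ hPQ hPB hQB h0 h2 h1 h3
    refine tx_of_model _ (cross_arcs (r := r) (Y := fun p => Y (inn r k p))
      (A := fun i => UU Y (arc r k i)) (P := P) (Q := Q) (fun p => hYc _)
      (fun p q h => hYd _ _ fun h' => h (inn_inj h')) (fun p q h => hYa _ _ (inn_adj h))
      (fun i => UU_conn hYc hYa (arc_conn hr1 k i))
      (fun i j h => UU_disj hYd (arc_disj hr1 k i j h)) (fun i p => ?_) (fun i p hp => ?_)
      hP hQ hPQ (fun i => hPB.mono_right (UU_mono (arc_sub hr1 k i)))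
      (fun i => hQB.mono_right (UU_mono (arc_sub hr1 k i)))
      (fun p => hPB.mono_right (sub_UU (inn_blk p))) (fun p => hQB.mono_right (sub_UU (inn_blk p)))
      h0 h2 h1 h3)
    · refine UU_disj' fun x hx => hYd _ _ ?_
      rintro rfl
      exact inn_arc p i hx
    · have key : ∀ z ∈ arc r k i, (grid (NN r)).Adj z (inn r k p) →
          Touch G (UU Y (arc r k i)) (Y (inn r k p)) := by
        intro z hz h
        obtain ⟨u, hu, v, hv, huv⟩ := hYa _ _ h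
        exact ⟨u, sub_UU hz hu, v, hv, huv⟩
      obtain ⟨t0, t1, t2, t3⟩ := inn_touch (r := r) (k := k) p
      rcases hp with ⟨rfl, h⟩ | ⟨rfl, h⟩ | ⟨rfl, h⟩ | ⟨rfl, h⟩
      · obtain ⟨z, hz, h⟩ := t0 h
        exact key z hz h
      · obtain ⟨z, hz, h⟩ := t1 h
        exact key z hz h
      · obtain ⟨z, hz, h⟩ := t2 h
        exact key z hz h
      · obtain ⟨z, hz, h⟩ := t3 h
        exact key z hz h

end Vale.Agent.P235.XC.H142
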