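import Vale.Agent.P235.XC.H142.Geo
import Vale.Agent.P235.XC.H337.Core
import Vale.Agent.P235.XC.H831.Cross
import Vale.Agent.P235.XC.H531.X1

/-! XC: `CoreStmt` of XC/Defs, without hypothesis (helper142): helper337's assembly, helper531's
cross lemma and the 64 blocks with margin 4 -/

namespace Vale.Agent.P235.XC.H142

open SimpleGraph Vale.Agent.P235.H134 Vale.Agent.P235.H56 Vale.Agent.P235.H141
open Vale.Agent.P235.H830 (Touch nbr UU sub_UU UU_mono UU_conn UU_disj UU_touch UU_disj')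
open Vale.Agent.P235.XC (TX CoreStmt)
open Vale.Agent.P235.XC.H831 (cross_arcs tx_of_model tsymm tmono)

theorem blkNN (r : ℕ) (hr : 2 ≤ r) : ∃ rt : Fin 64 → Fin 4 → Fin (NN r) × Fin (NN r),
    H337.Blk (NN r) (blk r) (arc r) rt (ln r) := by
  classical
  have hr1 : 1 ≤ r := by omega
  have hroot := fun (k : Fin 64) (j : Fin 4) => root_cells hr1 k j
  choose rt hrt y hy hadj using hroot
  refine ⟨rt,
    ⟨fun k l h => blk_disj r h, blk_card r, fun k i => ⟨rt k i, rfl, y k i, hy k i, hadj k i⟩,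
      hrt, ln_conn r, ln_blk r, ln_disj r, ?_, ?_⟩⟩
  · intro k
    obtain ⟨⟨x0, a0, b0⟩, ⟨x1, a1, b1⟩, ⟨x2, a2, b2⟩, ⟨x3, a3, b3⟩⟩ := ln_side (r := r) k
    exact fin4 _ ⟨x0, a0, b0⟩ ⟨x1, a1, b1⟩ ⟨x2, a2, b2⟩ ⟨x3, a3, b3⟩
  · intro k l hkl T hT _ hTl
    obtain ⟨j, Z, h1, h2, h3, h4, h5⟩ := geo r hr k l hkl T hT hTl
    exact ⟨j, Z, h1, h5 (hrt k j), h2, h3, h4⟩

theorem x5NN (r : ℕ) (hr : 2 ≤ r) : H337.X5At (TX r) (NN r) (blk r) (arc r) := by
  classical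
  have hr1 : 1 ≤ r := by omega
  intro V G Y hYc hYd hYa k P Q hP hQ hPQ hPB hQB h0 h2 h1 h3
  refine tx_of_model _ (cross_arcs (r := r) (Y := fun p => Y (inn r k p))
    (A := fun i => UU Y (arc r k i)) (P := P) (Q := Q) (fun p => hYc _)
    (fun p q h => hYd _ _ fun h' => h (inn_inj h')) (fun p q h => hYa _ _ (inn_adj h))
    (fun i => UU_conn hYc hYa (arc_conn hr1 k i))
    (fun i j h => UU_disj hYd (arc_disj hr1 k i j h)) (fun i p => ?_) (fun i p hp => ?_)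
    hP hQ hPQ (fun i => hPB.mono_right (UU_mono (arc_sub hr1 k i)))
    (fun i => hQB.mono_right (UU_mono (arc_sub hr1 k i)))
    (fun p => hPB.mono_right (sub_UU (inn_blk p))) (fun p => hQB.mono_right (sub_UU (inn_blk p)))
    h0 h2 h1 h3)
  · refine UU_disj' fun x hx => hYd _ _ ?_
    rintro rfl
    exact inn_arc p i hx
  · have key : ∀ z ∈ arc r k i, (grid (NN r)).Adj z (inn r k p) →
        Touch G (UU Y (arc r k i)) (Y (inn r k p)) := by
      intro z hz h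
      obtain ⟨u, hu, v, hv, huv⟩ := hYa _ _ h
      exact ⟨u, sub_UU hz hu, v, hv, huv⟩
    obtain ⟨t0, t1, t2, t3⟩ := inn_touch (r := r) (k := k) p
    rcases hp with ⟨rfl, h⟩ | ⟨rfl, h⟩ | ⟨rfl, h⟩ | ⟨rfl, h⟩
    · obtain ⟨z, hz, h⟩ := t0 h
      exact key z hz h
    · obtain ⟨z, hz, h⟩ := t1 h
      exact key z hz h
    · obtain ⟨z, hz, h⟩ := t2 h
      exact key z hz h
    · obtain ⟨z, hz, h⟩ := t3 h
      exact key z hz h

theorem x1 : H337.X1Stmt := by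
  intro V _ G B N M x cN cM dN dM dNM bN bM t x0 x1 _ x2 x3
  have hSt : St G B x N M := ⟨cN, cM, dN, dM 0 1 (by decide), dNM, bN, bM, t, x0, x1, x2, x3⟩
  rcases H531.cross V G B x N M hSt with h | h
  · left
    obtain ⟨P, Q, h1, h2, h3, h4, h5, h6, h7, h8, h9⟩ := h
    exact ⟨P, Q, h1, h2, h3, h4, h5, h6, h7, h8, h9⟩
  · right
    obtain ⟨S, D, h1, h2, h3, h4, h5, h6⟩ := h
    exact ⟨D, S, h1, fun v hv => h2 (Or.inl hv), fun v hv => h2 (Or.inr hv), h3, h5, h6⟩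

/-- **[X9]** a 3-connected graph with (Q4) and the minor `Q (NN r)` has the minor `TX r` -/
theorem core' (r : ℕ) (hr : 2 ≤ r) (V : Type) [Finite V] (G : SimpleGraph V) (h3 : Conn3 G)
    (h4 : Q4 G) (hm : IsMinor (H830.Q (NN r)) G) : IsMinor (TX r) G := by
  obtain ⟨rt, hB⟩ := blkNN r hr
  exact H337.core_q x1 hB (x5NN r hr) h3 h4 hm

theorem coreStmt : CoreStmt := by
  intro r hr V _ G h3 h4 hm
  refine core' r hr V G h3 h4 (minor_trans (H638.monoQ (NN r) (RX r) ?_) hm)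
  unfold NN RX
  omega

end Vale.Agent.P235.XC.H142
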