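import Vale.Agent.P235.XC.H142.Struct
import Vale.Agent.P235.XC.H801.Fin

/-! XC: the theorems of line XC without hypothesis (plug of the rows, helper142) -/

namespace Vale.Agent.P235.XC.H142

open SimpleGraph Vale.Agent.P235 Vale.Agent.P235.H134 Vale.Agent.P235.H56 Vale.Agent.P235.K5
open Vale.Agent.P235.XC Vale.Agent.P235.XC.H801

/-- sums over cliques with at most three vertices of graphs without the minor `TX r`, of graphs of
treewidth at most `w`, and of the other pieces of `XPiece` -/
theorem sumX (r : ℕ) (hr : 2 ≤ r) (w : ℕ) (C : ℝ) : ∃ K : ℝ, ∀ (V : Type) [Finite V]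
    (G H : SimpleGraph V), G ≤ H → G.Connected → CliqueSum 3 (XPiece r w C) H →
      DistortionLE G K :=
  H801.sumX pieceStmt r hr w C

/-- connected graphs without the minor `TX r` -/
theorem oneX (r : ℕ) (hr : 2 ≤ r) : ∃ K : ℝ, ∀ (V : Type) [Finite V]
    (G : SimpleGraph V), G.Connected → ¬ IsMinor (TX r) G → DistortionLE G K :=
  H801.oneX pieceStmt r hr

/-- connected graphs without the minor `M`, where `M` is a minor of some `TX r` -/
theorem minX {W : Type} (M : SimpleGraph W) (r : ℕ) (hr : 2 ≤ r) (hM : IsMinor M (TX r)) :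
    ∃ K : ℝ, ∀ (V : Type) [Finite V] (G : SimpleGraph V),
      G.Connected → ¬ IsMinor M G → DistortionLE G K :=
  H801.minX pieceStmt M r hr hM

end Vale.Agent.P235.XC.H142
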