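import Vale.Agent.P235.H830.QDefs
import Vale.Agent.P235.H786.CG
import Vale.Agent.P235.H452.Geo

/-! # XC: 64 blocks on the diagonal of a grid with margin 4 (helper142) -/

namespace Vale.Agent.P235.XC.H142

open SimpleGraph Vale.Agent.P235.H134 Vale.Agent.P235.H56 Vale.Agent.P235.H141
open Vale.Agent.P235.H830 (Touch nbr)
open Vale.Agent.P235.H786 (rect rect_connected)
open Vale.Agent.P235.H452 (Rch hor ver adj_hor adj_ver)

/-- first row and column of the block `k` -/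
def st (r k : ℕ) : ℕ := 4 + k * (r + 2)

/-- the size of the large grid -/
def NN (r : ℕ) : ℕ := 8 + 64 * (r + 2)

theorem st_succ (r k : ℕ) : st r (k + 1) = st r k + (r + 2) := by
  unfold st
  ring

theorem st_ge (r k : ℕ) : 4 ≤ st r k := by
  unfold st; omega

theorem st_le (r : ℕ) (k : Fin 64) : st r (k.val + 1) + 4 ≤ NN r := by
  unfold st NN
  have := Nat.mul_le_mul_right (r + 2) (show k.val + 1 ≤ 64 from k.isLt)
  omega

theorem st_mono (r : ℕ) {k l : ℕ} (h : k ≤ l) : st r k ≤ st r l := by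
  unfold st
  have := Nat.mul_le_mul_right (r + 2) h
  omega

/-- the block `k` -/
def blk (r : ℕ) (k : Fin 64) : Set (Fin (NN r) × Fin (NN r)) :=
  rect (NN r) (st r k.val) (st r (k.val + 1)) (st r k.val) (st r (k.val + 1))

/-- the lines from the block to the boundary: right, down, left, up -/
def ln (r : ℕ) (k : Fin 64) (j : Fin 4) : Set (Fin (NN r) × Fin (NN r)) :=
  if j = 0 then rect (NN r) (st r k.val + 1) (st r k.val + 2) (st r (k.val + 1)) (NN r)
  else if j = 1 then rect (NN r) (st r (k.val + 1)) (NN r) (st r k.val + 1) (st r k.val + 2)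
  else if j = 2 then rect (NN r) (st r k.val + 1) (st r k.val + 2) 0 (st r k.val)
  else rect (NN r) 0 (st r k.val) (st r k.val + 1) (st r k.val + 2)

/-- the arcs of the boundary of the block: right, bottom, left, top -/
def arc (r : ℕ) (k : Fin 64) (j : Fin 4) : Set (Fin (NN r) × Fin (NN r)) :=
  if j = 0 then rect (NN r) (st r k.val + 1) (st r (k.val + 1) - 1) (st r (k.val + 1) - 1)
    (st r (k.val + 1))
  else if j = 1 then rect (NN r) (st r (k.val + 1) - 1) (st r (k.val + 1)) (st r k.val)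
    (st r (k.val + 1))
  else if j = 2 then rect (NN r) (st r k.val + 1) (st r (k.val + 1) - 1) (st r k.val)
    (st r k.val + 1)
  else rect (NN r) (st r k.val) (st r k.val + 1) (st r k.val) (st r (k.val + 1))

theorem fin4 (P : Fin 4 → Prop) (h0 : P 0) (h1 : P 1) (h2 : P 2) (h3 : P 3) : ∀ i, P i := by
  intro i
  fin_cases i
  · exact h0
  · exact h1
  · exact h2
  · exact h3

section
variable {r : ℕ} {k : Fin 64}

theorem ln0 : ln r k 0 = rect (NN r) (st r k.val + 1) (st r k.val + 2) (st r (k.val + 1)) (NN r) :=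
  rfl
theorem ln1 : ln r k 1 = rect (NN r) (st r (k.val + 1)) (NN r) (st r k.val + 1) (st r k.val + 2) :=
  rfl
theorem ln2 : ln r k 2 = rect (NN r) (st r k.val + 1) (st r k.val + 2) 0 (st r k.val) := rfl
theorem ln3 : ln r k 3 = rect (NN r) 0 (st r k.val) (st r k.val + 1) (st r k.val + 2) := rfl
theorem arc0 : arc r k 0 = rect (NN r) (st r k.val + 1) (st r (k.val + 1) - 1)
    (st r (k.val + 1) - 1) (st r (k.val + 1)) := rfl
theorem arc1 : arc r k 1 = rect (NN r) (st r (k.val + 1) - 1) (st r (k.val + 1)) (st r k.val)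
    (st r (k.val + 1)) := rfl
theorem arc2 : arc r k 2 = rect (NN r) (st r k.val + 1) (st r (k.val + 1) - 1) (st r k.val)
    (st r k.val + 1) := rfl
theorem arc3 : arc r k 3 = rect (NN r) (st r k.val) (st r k.val + 1) (st r k.val)
    (st r (k.val + 1)) := rfl

theorem ln_conn (r : ℕ) (k : Fin 64) : ∀ j, ((grid (NN r)).induce (ln r k j)).Connected := by
  have h1 := st_succ r k.val
  have h2 := st_le r k
  have h3 := st_ge r k.val
  refine fin4 _ ?_ ?_ ?_ ?_
  · rw [ln0]; exact rect_connected (by omega) (by omega) (by omega) (by omega)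
  · rw [ln1]; exact rect_connected (by omega) (by omega) (by omega) (by omega)
  · rw [ln2]; exact rect_connected (by omega) (by omega) (by omega) (by omega)
  · rw [ln3]; exact rect_connected (by omega) (by omega) (by omega) (by omega)

theorem arc_conn (hr : 1 ≤ r) (k : Fin 64) :
    ∀ j, ((grid (NN r)).induce (arc r k j)).Connected := by
  have h1 := st_succ r k.val
  have h2 := st_le r k
  have h3 := st_ge r k.val
  refine fin4 _ ?_ ?_ ?_ ?_
  · rw [arc0]; exact rect_connected (by omega) (by omega) (by omega) (by omega)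
  · rw [arc1]; exact rect_connected (by omega) (by omega) (by omega) (by omega)
  · rw [arc2]; exact rect_connected (by omega) (by omega) (by omega) (by omega)
  · rw [arc3]; exact rect_connected (by omega) (by omega) (by omega) (by omega)

theorem rect_disj {n a b c d a' b' c' d' : ℕ} (h : b ≤ a' ∨ b' ≤ a ∨ d ≤ c' ∨ d' ≤ c) :
    Disjoint (rect n a b c d) (rect n a' b' c' d') := by
  rw [Set.disjoint_left]
  rintro x ⟨h1, h2, h3, h4⟩ ⟨h5, h6, h7, h8⟩
  omega

theorem ln_disj (r : ℕ) (k : Fin 64) : ∀ i j, i ≠ j → Disjoint (ln r k i) (ln r k j) := by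
  have h1 := st_succ r k.val
  have h2 := st_le r k
  have h3 := st_ge r k.val
  have e01 : Disjoint (ln r k 0) (ln r k 1) := by
    rw [ln0, ln1]; exact rect_disj (by omega)
  have e02 : Disjoint (ln r k 0) (ln r k 2) := by
    rw [ln0, ln2]; exact rect_disj (by omega)
  have e03 : Disjoint (ln r k 0) (ln r k 3) := by
    rw [ln0, ln3]; exact rect_disj (by omega)
  have e12 : Disjoint (ln r k 1) (ln r k 2) := by
    rw [ln1, ln2]; exact rect_disj (by omega)
  have e13 : Disjoint (ln r k 1) (ln r k 3) := by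
    rw [ln1, ln3]; exact rect_disj (by omega)
  have e23 : Disjoint (ln r k 2) (ln r k 3) := by
    rw [ln2, ln3]; exact rect_disj (by omega)
  refine fin4 _ (fin4 _ ?_ ?_ ?_ ?_) (fin4 _ ?_ ?_ ?_ ?_) (fin4 _ ?_ ?_ ?_ ?_)
    (fin4 _ ?_ ?_ ?_ ?_)
  · exact fun h => absurd rfl h
  · exact fun _ => e01
  · exact fun _ => e02
  · exact fun _ => e03
  · exact fun _ => e01.symm
  · exact fun h => absurd rfl h
  · exact fun _ => e12
  · exact fun _ => e13
  · exact fun _ => e02.symm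
  · exact fun _ => e12.symm
  · exact fun h => absurd rfl h
  · exact fun _ => e23
  · exact fun _ => e03.symm
  · exact fun _ => e13.symm
  · exact fun _ => e23.symm
  · exact fun h => absurd rfl h

theorem ln_blk (r : ℕ) (k : Fin 64) : ∀ i, Disjoint (ln r k i) (blk r k) := by
  have h1 := st_succ r k.val
  have h2 := st_le r k
  have h3 := st_ge r k.val
  refine fin4 _ ?_ ?_ ?_ ?_
  · rw [ln0]; exact rect_disj (by omega)
  · rw [ln1]; exact rect_disj (by omega)
  · rw [ln2]; exact rect_disj (by omega)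
  · rw [ln3]; exact rect_disj (by omega)

theorem arc_sub (hr : 1 ≤ r) (k : Fin 64) : ∀ i, arc r k i ⊆ blk r k := by
  have h1 := st_succ r k.val
  have h2 := st_le r k
  have h3 := st_ge r k.val
  refine fin4 _ ?_ ?_ ?_ ?_ <;>
  · rintro x ⟨h5, h6, h7, h8⟩
    refine ⟨?_, ?_, ?_, ?_⟩ <;> omega

theorem arc_disj (hr : 1 ≤ r) (k : Fin 64) :
    ∀ i j, i ≠ j → Disjoint (arc r k i) (arc r k j) := by
  have h1 := st_succ r k.val
  have h2 := st_le r k
  have h3 := st_ge r k.val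
  have e01 : Disjoint (arc r k 0) (arc r k 1) := by
    rw [arc0, arc1]; exact rect_disj (by omega)
  have e02 : Disjoint (arc r k 0) (arc r k 2) := by
    rw [arc0, arc2]; exact rect_disj (by omega)
  have e03 : Disjoint (arc r k 0) (arc r k 3) := by
    rw [arc0, arc3]; exact rect_disj (by omega)
  have e12 : Disjoint (arc r k 1) (arc r k 2) := by
    rw [arc1, arc2]; exact rect_disj (by omega)
  have e13 : Disjoint (arc r k 1) (arc r k 3) := by
    rw [arc1, arc3]; exact rect_disj (by omega)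
  have e23 : Disjoint (arc r k 2) (arc r k 3) := by
    rw [arc2, arc3]; exact rect_disj (by omega)
  refine fin4 _ (fin4 _ ?_ ?_ ?_ ?_) (fin4 _ ?_ ?_ ?_ ?_) (fin4 _ ?_ ?_ ?_ ?_)
    (fin4 _ ?_ ?_ ?_ ?_)
  · exact fun h => absurd rfl h
  · exact fun _ => e01
  · exact fun _ => e02
  · exact fun _ => e03
  · exact fun _ => e01.symm
  · exact fun h => absurd rfl h
  · exact fun _ => e12
  · exact fun _ => e13
  · exact fun _ => e02.symm
  · exact fun _ => e12.symm
  · exact fun h => absurd rfl h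
  · exact fun _ => e23
  · exact fun _ => e03.symm
  · exact fun _ => e13.symm
  · exact fun _ => e23.symm
  · exact fun h => absurd rfl h

/-- first cell of the line, next to a cell of the arc -/
theorem root_cells (hr : 1 ≤ r) (k : Fin 64) : ∀ j : Fin 4, ∃ x ∈ ln r k j, ∃ y ∈ arc r k j,
    (grid (NN r)).Adj x y := by
  have h1 := st_succ r k.val
  have h2 := st_le r k
  have h3 := st_ge r k.val
  refine fin4 _ ?_ ?_ ?_ ?_
  · refine ⟨(⟨st r k.val + 1, by omega⟩, ⟨st r (k.val + 1), by omega⟩), ?_,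
      (⟨st r k.val + 1, by omega⟩, ⟨st r (k.val + 1) - 1, by omega⟩), ?_, ?_⟩
    · refine ⟨?_, ?_, ?_, ?_⟩ <;> simp only <;> omega
    · refine ⟨?_, ?_, ?_, ?_⟩ <;> simp only <;> omega
    · exact (H786.grid_adj _ _).2 (Or.inr ⟨Or.inr (by simp only; omega), rfl⟩)
  · refine ⟨(⟨st r (k.val + 1), by omega⟩, ⟨st r k.val + 1, by omega⟩), ?_,
      (⟨st r (k.val + 1) - 1, by omega⟩, ⟨st r k.val + 1, by omega⟩), ?_, ?_⟩
    · refine ⟨?_, ?_, ?_, ?_⟩ <;> simp only <;> omega
    · refine ⟨?_, ?_, ?_, ?_⟩ <;> simp only <;> omega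
    · exact (H786.grid_adj _ _).2 (Or.inl ⟨Or.inr (by simp only; omega), rfl⟩)
  · refine ⟨(⟨st r k.val + 1, by omega⟩, ⟨st r k.val - 1, by omega⟩), ?_,
      (⟨st r k.val + 1, by omega⟩, ⟨st r k.val, by omega⟩), ?_, ?_⟩
    · refine ⟨?_, ?_, ?_, ?_⟩ <;> simp only <;> omega
    · refine ⟨?_, ?_, ?_, ?_⟩ <;> simp only <;> omega
    · exact (H786.grid_adj _ _).2 (Or.inr ⟨Or.inl (by simp only; omega), rfl⟩)
  · refine ⟨(⟨st r k.val - 1, by omega⟩, ⟨st r k.val + 1, by omega⟩), ?_,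
      (⟨st r k.val, by omega⟩, ⟨st r k.val + 1, by omega⟩), ?_, ?_⟩
    · refine ⟨?_, ?_, ?_, ?_⟩ <;> simp only <;> omega
    · refine ⟨?_, ?_, ?_, ?_⟩ <;> simp only <;> omega
    · exact (H786.grid_adj _ _).2 (Or.inl ⟨Or.inl (by simp only; omega), rfl⟩)

/-- the lines end on the sides of the large grid -/
theorem ln_side (k : Fin 64) : (∃ x ∈ ln r k 0, x ∈ H830.side (NN r) 2) ∧
    (∃ x ∈ ln r k 1, x ∈ H830.side (NN r) 2) ∧ (∃ x ∈ ln r k 2, x ∈ H830.side (NN r) 1) ∧
    ∃ x ∈ ln r k 3, x ∈ H830.side (NN r) 0 := by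
  have h1 := st_succ r k.val
  have h2 := st_le r k
  have h3 := st_ge r k.val
  refine ⟨⟨(⟨st r k.val + 1, by omega⟩, ⟨NN r - 1, by omega⟩), ?_, ?_⟩,
    ⟨(⟨NN r - 1, by omega⟩, ⟨st r k.val + 1, by omega⟩), ?_, ?_⟩,
    ⟨(⟨st r k.val + 1, by omega⟩, ⟨0, by omega⟩), ?_, ?_⟩,
    ⟨(⟨0, by omega⟩, ⟨st r k.val + 1, by omega⟩), ?_, ?_⟩⟩
  · refine ⟨?_, ?_, ?_, ?_⟩ <;> simp only <;> omega
  · exact Or.inr (Or.inr ⟨rfl, Or.inr (by simp only; omega)⟩)
  · refine ⟨?_, ?_, ?_, ?_⟩ <;> simp only <;> omega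
  · exact Or.inr (Or.inr ⟨rfl, Or.inl (by simp only; omega)⟩)
  · refine ⟨?_, ?_, ?_, ?_⟩ <;> simp only <;> omega
  · exact Or.inr (Or.inl ⟨rfl, rfl⟩)
  · refine ⟨?_, ?_, ?_, ?_⟩ <;> simp only <;> omega
  · exact Or.inl ⟨rfl, rfl⟩

theorem blk_disj (r : ℕ) {k l : Fin 64} (hkl : k ≠ l) : Disjoint (blk r k) (blk r l) := by
  rw [Set.disjoint_left]
  rintro x ⟨h1, h2, -, -⟩ ⟨h3, h4, -, -⟩
  rcases lt_trichotomy k l with h | h | h
  · have := st_mono r (show k.val + 1 ≤ l.val from h)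
    omega
  · exact hkl h
  · have := st_mono r (show l.val + 1 ≤ k.val from h)
    omega

theorem blk_card (r : ℕ) (k : Fin 64) : 3 ≤ (blk r k).ncard := by
  have h1 := st_succ r k.val
  have h2 := st_le r k
  have h3 := st_ge r k.val
  have hsub : ({(⟨st r k.val, by omega⟩, ⟨st r k.val, by omega⟩),
      (⟨st r k.val, by omega⟩, ⟨st r k.val + 1, by omega⟩),
      (⟨st r k.val + 1, by omega⟩, ⟨st r k.val, by omega⟩)} :
      Set (Fin (NN r) × Fin (NN r))) ⊆ blk r k := by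
    rintro x (rfl | rfl | rfl)
    · refine ⟨?_, ?_, ?_, ?_⟩ <;> simp only <;> omega
    · refine ⟨?_, ?_, ?_, ?_⟩ <;> simp only <;> omega
    · refine ⟨?_, ?_, ?_, ?_⟩ <;> simp only <;> omega
  refine le_trans (le_of_eq ?_) (Set.ncard_le_ncard hsub (Set.toFinite _))
  symm
  refine Set.ncard_eq_three.2 ⟨_, _, _, ?_, ?_, ?_, rfl⟩
  · intro h; have := congrArg (fun x => x.2.val) h; simp only at this; omega
  · intro h; have := congrArg (fun x => x.1.val) h; simp only at this; omega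
  · intro h; have := congrArg (fun x => x.1.val) h; simp only at this; omega

/-- the interior of the block -/
def inn (r : ℕ) (k : Fin 64) (p : Fin r × Fin r) : Fin (NN r) × Fin (NN r) :=
  (⟨st r k.val + 1 + p.1.val, by
      have h1 := p.1.isLt
      have := st_le r k
      have := st_succ r k.val
      omega⟩,
    ⟨st r k.val + 1 + p.2.val, by
      have h1 := p.2.isLt
      have := st_le r k
      have := st_succ r k.val
      omega⟩)

theorem inn1 (p : Fin r × Fin r) : (inn r k p).1.val = st r k.val + 1 + p.1.val := rfl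
theorem inn2 (p : Fin r × Fin r) : (inn r k p).2.val = st r k.val + 1 + p.2.val := rfl

theorem inn_inj : Function.Injective (inn r k) := by
  intro p q h
  have h1 := congrArg (fun x => x.1.val) h
  have h2 := congrArg (fun x => x.2.val) h
  simp only [inn1, inn2] at h1 h2
  exact Prod.ext (Fin.ext (by omega)) (Fin.ext (by omega))

theorem inn_adj {p q : Fin r × Fin r} (h : (grid r).Adj p q) :
    (grid (NN r)).Adj (inn r k p) (inn r k q) := by
  rw [H786.grid_adj] at h ⊢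
  rw [Fin.ext_iff, Fin.ext_iff, inn1, inn1, inn2, inn2]
  rw [Fin.ext_iff, Fin.ext_iff] at h
  omega

theorem inn_blk (p : Fin r × Fin r) : inn r k p ∈ blk r k := by
  have h1 := p.1.isLt
  have h2 := p.2.isLt
  have e1 := inn1 (k := k) p
  have e2 := inn2 (k := k) p
  have := st_succ r k.val
  refine ⟨?_, ?_, ?_, ?_⟩ <;> omega

theorem inn_arc (p : Fin r × Fin r) : ∀ i, inn r k p ∉ arc r k i := by
  have h1 := p.1.isLt
  have h2 := p.2.isLt
  have e1 := inn1 (k := k) p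
  have e2 := inn2 (k := k) p
  have := st_succ r k.val
  refine fin4 _ ?_ ?_ ?_ ?_ <;>
  · rintro ⟨h5, h6, h7, h8⟩
    omega

/-- the cells next to the arcs -/
theorem inn_touch (p : Fin r × Fin r) :
    (p.2.val + 1 = r → ∃ y ∈ arc r k 0, (grid (NN r)).Adj y (inn r k p)) ∧
    (p.1.val + 1 = r → ∃ y ∈ arc r k 1, (grid (NN r)).Adj y (inn r k p)) ∧
    (p.2.val = 0 → ∃ y ∈ arc r k 2, (grid (NN r)).Adj y (inn r k p)) ∧
    (p.1.val = 0 → ∃ y ∈ arc r k 3, (grid (NN r)).Adj y (inn r k p)) := by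
  have h1 := p.1.isLt
  have h2 := p.2.isLt
  have e1 := inn1 (k := k) p
  have e2 := inn2 (k := k) p
  have hs := st_succ r k.val
  have hn := st_le r k
  refine ⟨fun h => ?_, fun h => ?_, fun h => ?_, fun h => ?_⟩
  · refine ⟨((inn r k p).1, ⟨st r (k.val + 1) - 1, by omega⟩), ?_, ?_⟩
    · refine ⟨?_, ?_, ?_, ?_⟩ <;> simp only <;> omega
    · exact (H786.grid_adj _ _).2 (Or.inr ⟨Or.inr (by simp only; omega), rfl⟩)
  · refine ⟨(⟨st r (k.val + 1) - 1, by omega⟩, (inn r k p).2), ?_, ?_⟩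
    · refine ⟨?_, ?_, ?_, ?_⟩ <;> simp only <;> omega
    · exact (H786.grid_adj _ _).2 (Or.inl ⟨Or.inr (by simp only; omega), rfl⟩)
  · refine ⟨((inn r k p).1, ⟨st r k.val, by omega⟩), ?_, ?_⟩
    · refine ⟨?_, ?_, ?_, ?_⟩ <;> simp only <;> omega
    · exact (H786.grid_adj _ _).2 (Or.inr ⟨Or.inl (by simp only; omega), rfl⟩)
  · refine ⟨(⟨st r k.val, by omega⟩, (inn r k p).2), ?_, ?_⟩
    · refine ⟨?_, ?_, ?_, ?_⟩ <;> simp only <;> omega
    · exact (H786.grid_adj _ _).2 (Or.inl ⟨Or.inl (by simp only; omega), rfl⟩)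

end

theorem pick {n : ℕ} (T : Set (Fin n × Fin n)) (hT : T.ncard ≤ 3) (f : Fin n × Fin n → Fin n)
    (a : ℕ) (ha : a + 4 ≤ n) : ∃ c : Fin n, a ≤ c.val ∧ c.val < a + 4 ∧ ∀ x ∈ T, f x ≠ c := by
  classical
  by_contra hcon
  push Not at hcon
  have h : ∀ i : Fin 4, ∃ x ∈ T, f x = ⟨a + i.val, by have := i.isLt; omega⟩ := fun i =>
    hcon ⟨a + i.val, by have := i.isLt; omega⟩ (by simp) (by have := i.isLt; simp)
  choose x hx e using h
  have := Set.ncard_le_ncard_of_injOn (s := (Set.univ : Set (Fin 4))) (t := T) x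
    (fun i _ => hx i) (by
      intro i _ j _ hij
      have h1 := e i
      rw [hij, e j] at h1
      simp only [Fin.mk.injEq] at h1
      exact Fin.ext (by omega)) (Set.toFinite T)
  rw [Set.ncard_univ, Nat.card_eq_fintype_card, Fintype.card_fin] at this
  omega

/-- **[X4], the geometry**: from one of the four lines to the block `l` -/
theorem geo (r : ℕ) (hr : 2 ≤ r) (k l : Fin 64) (hkl : k ≠ l)
    (T : Set (Fin (NN r) × Fin (NN r))) (hT : T.ncard ≤ 3) (hTl : Disjoint T (blk r l)) :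
    ∃ (j : Fin 4) (Z : Set (Fin (NN r) × Fin (NN r))), ((grid (NN r)).induce Z).Connected ∧
      blk r l ⊆ Z ∧ Disjoint Z (blk r k) ∧ Disjoint Z T ∧ ln r k j ⊆ Z := by
  classical
  have hk1 := st_succ r k.val
  have hl1 := st_succ r l.val
  have hk0 := st_ge r k.val
  have hl0 := st_ge r l.val
  have hkn := st_le r k
  have hln := st_le r l
  have hsep : st r (k.val + 1) ≤ st r l.val ∨ st r (l.val + 1) ≤ st r k.val := by
    have hne : k.val ≠ l.val := fun h => hkl (Fin.ext h)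
    rcases lt_or_gt_of_ne hne with h | h
    · exact Or.inl (st_mono r h)
    · exact Or.inr (st_mono r h)
  -- one line is free of `T`
  obtain ⟨j, hj⟩ : ∃ j : Fin 4, Disjoint (ln r k j) T := by
    by_contra hcon
    push Not at hcon
    have h : ∀ i : Fin 4, ∃ x, x ∈ ln r k i ∧ x ∈ T := fun i => Set.not_disjoint_iff.1 (hcon i)
    choose x hx e using h
    have := Set.ncard_le_ncard_of_injOn (s := (Set.univ : Set (Fin 4))) (t := T) x
      (fun i _ => e i) (by
        intro i _ j _ hij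
        by_contra hne
        exact Set.disjoint_left.1 (ln_disj r k i j hne) (hx i) (by rw [hij]; exact hx j))
      (Set.toFinite T)
    rw [Set.ncard_univ, Nat.card_eq_fintype_card, Fintype.card_fin] at this
    omega
  -- clear rows and columns
  let cr : Fin (NN r) → Prop := fun ρ => (∀ x ∈ T, x.1 ≠ ρ) ∧
    (ρ.val < st r k.val ∨ st r (k.val + 1) ≤ ρ.val)
  let cc : Fin (NN r) → Prop := fun c => (∀ x ∈ T, x.2 ≠ c) ∧
    (c.val < st r k.val ∨ st r (k.val + 1) ≤ c.val)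
  let Z0 : Set (Fin (NN r) × Fin (NN r)) := {x | cr x.1 ∨ cc x.2}
  obtain ⟨ρ0, hρ0, hρ0', hρT⟩ := pick T hT Prod.fst 0 (by omega)
  obtain ⟨c0, hc0, hc0', hcT⟩ := pick T hT Prod.snd 0 (by omega)
  have hρ : cr ρ0 := ⟨hρT, Or.inl (by omega)⟩
  have hc : cc c0 := ⟨hcT, Or.inl (by omega)⟩
  obtain ⟨ρ1, hρ1, hρ1', hρ1T⟩ := pick T hT Prod.fst (NN r - 4) (by omega)
  have hρe : cr ρ1 := ⟨hρ1T, Or.inr (by omega)⟩
  obtain ⟨c1, hc1, hc1', hc1T⟩ := pick T hT Prod.snd (NN r - 4) (by omega)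
  have hce : cc c1 := ⟨hc1T, Or.inr (by omega)⟩
  have hZT : Disjoint Z0 T := by
    rw [Set.disjoint_left]
    rintro x (h | h) hx
    · exact h.1 x hx rfl
    · exact h.1 x hx rfl
  have hZk : Disjoint Z0 (blk r k) := by
    rw [Set.disjoint_left]
    rintro x (h | h) ⟨h1, h2, h3, h4⟩
    · have := h.2
      omega
    · have := h.2
      omega
  have base : ∀ Z : Set (Fin (NN r) × Fin (NN r)), Z0 ⊆ Z → ∀ x : Fin (NN r) × Fin (NN r),
      cr x.1 ∨ cc x.2 → Rch Z x (ρ0, c0) := by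
    rintro Z hZ ⟨a, b⟩ (h | h)
    · refine (hor Z a 0 (NN r) (fun t _ _ => hZ (Or.inl h)) b c0 (Nat.zero_le _) b.isLt.le
        (Nat.zero_le _) c0.isLt.le).trans ?_
      exact ver Z c0 0 (NN r) (fun t _ _ => hZ (Or.inr hc)) a ρ0 (Nat.zero_le _) a.isLt.le
        (Nat.zero_le _) ρ0.isLt.le
    · refine (ver Z b 0 (NN r) (fun t _ _ => hZ (Or.inr h)) a ρ0 (Nat.zero_le _) a.isLt.le
        (Nat.zero_le _) ρ0.isLt.le).trans ?_
      exact hor Z ρ0 0 (NN r) (fun t _ _ => hZ (Or.inl hρ)) b c0 (Nat.zero_le _) b.isLt.le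
        (Nat.zero_le _) c0.isLt.le
  obtain ⟨ρl, hρl, hρl', hρlT⟩ := pick T hT Prod.fst (st r l.val) (by omega)
  have hρlc : cr ρl := ⟨hρlT, by omega⟩
  have bl : ∀ Z : Set (Fin (NN r) × Fin (NN r)), Z0 ⊆ Z → blk r l ⊆ Z → ∀ x ∈ blk r l,
      Rch Z x (ρ0, c0) := by
    rintro Z hZ hZl ⟨a, b⟩ ⟨h1, h2, h3, h4⟩
    simp only at h1 h2 h3 h4
    refine (ver Z b (st r l.val) (st r (l.val + 1) - 1) (fun t ht1 ht2 => hZl ?_) a ρl h1
      (by omega) hρl (by omega)).trans (base Z hZ _ (Or.inl hρlc))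
    exact ⟨ht1, by simp only; omega, h3, h4⟩
  have hlk : Disjoint (blk r l) (blk r k) := blk_disj r hkl.symm
  -- the free line reaches the base point
  have hln' : ∀ j : Fin 4, ∀ Z : Set (Fin (NN r) × Fin (NN r)), Z0 ⊆ Z → ln r k j ⊆ Z →
      ∀ x ∈ ln r k j, Rch Z x (ρ0, c0) := by
    refine fin4 _ ?_ ?_ ?_ ?_
    · rintro Z hZ hPZ ⟨a, b⟩ ⟨h1, h2, h3, h4⟩
      simp only at h1 h2 h3 h4
      refine (hor Z a (st r (k.val + 1)) (NN r) (fun t ht _ => hPZ ⟨h1, h2, ht, t.isLt⟩) b c1 h3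
        b.isLt.le (by omega) c1.isLt.le).trans (base Z hZ _ (Or.inr hce))
    · rintro Z hZ hPZ ⟨a, b⟩ ⟨h1, h2, h3, h4⟩
      simp only at h1 h2 h3 h4
      refine (ver Z b (st r (k.val + 1)) (NN r) (fun t ht _ => hPZ ⟨ht, t.isLt, h3, h4⟩) a ρ1 h1
        a.isLt.le (by omega) ρ1.isLt.le).trans (base Z hZ _ (Or.inl hρe))
    · rintro Z hZ hPZ ⟨a, b⟩ ⟨h1, h2, h3, h4⟩
      simp only at h1 h2 h3 h4
      refine (hor Z a 0 (st r k.val - 1) (fun t _ ht => hPZ ⟨h1, h2, Nat.zero_le _, ?_⟩) b c0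
        (Nat.zero_le _) (by omega) (Nat.zero_le _) (by omega)).trans (base Z hZ _ (Or.inr hc))
      simp only
      omega
    · rintro Z hZ hPZ ⟨a, b⟩ ⟨h1, h2, h3, h4⟩
      simp only at h1 h2 h3 h4
      refine (ver Z b 0 (st r k.val - 1) (fun t _ ht => hPZ ⟨Nat.zero_le _, ?_, h3, h4⟩) a ρ0
        (Nat.zero_le _) (by omega) (Nat.zero_le _) (by omega)).trans (base Z hZ _ (Or.inl hρ))
      simp only
      omega
  refine ⟨j, Z0 ∪ blk r l ∪ ln r k j, ?_, ?_, ?_, ?_, ?_⟩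
  · have hb : (ρ0, c0) ∈ Z0 ∪ blk r l ∪ ln r k j := Or.inl (Or.inl (Or.inl hρ))
    have hall : ∀ x ∈ Z0 ∪ blk r l ∪ ln r k j, Rch (Z0 ∪ blk r l ∪ ln r k j) x (ρ0, c0) := by
      rintro x ((h | h) | h)
      · exact base _ (fun y hy => Or.inl (Or.inl hy)) x h
      · exact bl _ (fun y hy => Or.inl (Or.inl hy)) (fun y hy => Or.inl (Or.inr hy)) x h
      · exact hln' j _ (fun y hy => Or.inl (Or.inl hy)) (fun y hy => Or.inr hy) x h
    have : Nonempty (Z0 ∪ blk r l ∪ ln r k j : Set (Fin (NN r) × Fin (NN r))) := ⟨⟨_, hb⟩⟩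
    refine Connected.mk fun x y => ?_
    obtain ⟨_, _, h1⟩ := hall x.1 x.2
    obtain ⟨_, _, h2⟩ := hall y.1 y.2
    exact h1.trans h2.symm
  · exact fun y hy => Or.inl (Or.inr hy)
  · rw [Set.disjoint_union_left, Set.disjoint_union_left]
    exact ⟨⟨hZk, hlk⟩, ln_blk r k j⟩
  · rw [Set.disjoint_union_left, Set.disjoint_union_left]
    exact ⟨⟨hZT, hTl.symm⟩, hj⟩
  · exact fun y hy => Or.inr hy

end Vale.Agent.P235.XC.H142
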