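import Vale.Agent.P235.XC.H142.Core
import Vale.Agent.P235.XC.H183.Piece
import Vale.Agent.P235.XC.H281.X3

/-! XC: `PieceStmt` and `StructXStmt` without hypothesis (plug of the rows, helper142) -/

namespace Vale.Agent.P235.XC.H142

open Vale.Agent.P235.XC

theorem pieceStmt : PieceStmt := H183.piece coreStmt

theorem structXStmt : StructXStmt := H281.structX pieceStmt

end Vale.Agent.P235.XC.H142
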